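import Vale.Agent.N156.Main

open MeasureTheory Filter Topology Set Vale.Agent.P156 Vale.Agent.P156W Vale.Agent.N156

/-- **Random `d`-regular graphs, every fixed `d ≥ 3`: moving energies.**  `Ξ` is a random point
measure, the limit in law (vague topology) of the unfolded GOE point measures.  The unfolded point
measures of the graph along moving bulk energies `e n → E` converge in law to `Ξ`. -/
theorem Vale.Agent.Results.P156.A0Spacings.result :
    ∃ (Ω : Type) (_ : MeasurableSpace Ω) (P : Measure Ω) (_ : IsProbabilityMeasure P)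
      (Ξ : Ω → LF),
      ((∀ ω, ∃ (κ : Set ℕ) (z : κ → ℝ), (Ξ ω).meas = Measure.sum fun k => Measure.dirac (z k)) ∧
        TendstoInDistribution goePt atTop Ξ goeLaw P) ∧
      ∀ d : ℕ, 3 ≤ d → ∀ E : ℝ, |E| < 2 * Real.sqrt (d - 1) → ∀ e : ℕ → ℝ,
        Tendsto e atTop (𝓝 E) →
          TendstoInDistribution (fun n : Adm d => graphPt n d (e n)) (comap Subtype.val atTop) Ξ
            (fun n => graphLaw n d) P := by
  obtain ⟨Ω, _, P, _, Ξ, h⟩ := exists_lim
  exact ⟨Ω, _, P, _, Ξ, ⟨h.point, h.goe⟩, h.move⟩
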